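import Mathlib
import Vale.Agent.Lib.P302.helper8.E122.Base

/-!
# P302: pieces of the mask search of the 122-item instance (part 0)
-/

namespace Vale.Agent.Lib.P302.helper8.E122

open Vale.Agent.Lib.P302.helper14 Vale.Agent.Lib.P302.helper8

theorem ok_lay0 : stepOKF rows cap lay0 lay1 = true := by decide +kernel

theorem ok_lay1 : stepOKF rows cap lay1 lay2 = true := by decide +kernel

theorem ok_lay2 : stepOKF rows cap lay2 lay3 = true := by decide +kernel

theorem ok_lay3 : stepOKF rows cap lay3 lay4 = true := by decide +kernel

theorem ok_lay4 : stepOKF rows cap lay4 lay5 = true := by decide +kernel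

theorem ok_lay5 : stepOKF rows cap lay5 lay6 = true := by decide +kernel

end Vale.Agent.Lib.P302.helper8.E122
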