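import Mathlib
import Vale.Agent.Lib.P302.helper8.E122.Base
import Vale.Agent.Lib.P302.helper8.E122.K1

/-!
# P302: pieces of the mask search of the 122-item instance (part 4)
-/

namespace Vale.Agent.Lib.P302.helper8.E122

open Vale.Agent.Lib.P302.helper14 Vale.Agent.Lib.P302.helper8

theorem ok_p8_1 : stepOKF rows cap p8_1 lay9 = true := by decide +kernel

theorem ok_lay9 : stepOKF rows cap lay9 lay10 = true := by decide +kernel

theorem ok_lay10 : stepOKF rows cap lay10 lay11 = true := by decide +kernel

theorem ok_lay11 : stepOKF rows cap lay11 lay12 = true := by decide +kernel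

theorem ok_lay12 : stepOKF rows cap lay12 lay13 = true := by decide +kernel

end Vale.Agent.Lib.P302.helper8.E122
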