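import Mathlib
import Vale.Agent.Lib.P302.helper8.E122.Base
import Vale.Agent.Lib.P302.helper8.E122.K21

/-!
# P302: pieces of the mask search of the 122-item instance (part 24)
-/

namespace Vale.Agent.Lib.P302.helper8.E122

open Vale.Agent.Lib.P302.helper14 Vale.Agent.Lib.P302.helper8

theorem ok_p20_1 : stepOKF rows cap p20_1 lay21 = true := by decide +kernel

end Vale.Agent.Lib.P302.helper8.E122
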