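import Mathlib
import Vale.Agent.Lib.P302.helper8.E122.Base
import Vale.Agent.Lib.P302.helper8.E122.K37

/-!
# P302: pieces of the mask search of the 122-item instance (part 40)
-/

namespace Vale.Agent.Lib.P302.helper8.E122

open Vale.Agent.Lib.P302.helper14 Vale.Agent.Lib.P302.helper8

theorem ok_lay31 : stepOKF rows cap lay31 lay32 = true := by decide +kernel

theorem ok_lay32 : stepOKF rows cap lay32 lay33 = true := by decide +kernel

theorem ok_lay33 : stepOKF rows cap lay33 lay34 = true := by decide +kernel

theorem ok_lay34 : stepOKF rows cap lay34 lay35 = true := by decide +kernel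

theorem ok_lay35 : stepOKF rows cap lay35 lay36 = true := by decide +kernel

theorem ok_lay36 : stepOKF rows cap lay36 lay37 = true := by decide +kernel

theorem ok_lay37 : stepOKF rows cap lay37 lay38 = true := by decide +kernel

end Vale.Agent.Lib.P302.helper8.E122
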