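import Mathlib
import Vale.Agent.Lib.P302.helper8.E122.K0
import Vale.Agent.Lib.P302.helper8.E122.K1
import Vale.Agent.Lib.P302.helper8.E122.K2
import Vale.Agent.Lib.P302.helper8.E122.K3
import Vale.Agent.Lib.P302.helper8.E122.K4
import Vale.Agent.Lib.P302.helper8.E122.K5
import Vale.Agent.Lib.P302.helper8.E122.K6
import Vale.Agent.Lib.P302.helper8.E122.K7
import Vale.Agent.Lib.P302.helper8.E122.K8
import Vale.Agent.Lib.P302.helper8.E122.K9
import Vale.Agent.Lib.P302.helper8.E122.K10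
import Vale.Agent.Lib.P302.helper8.E122.K11
import Vale.Agent.Lib.P302.helper8.E122.K12
import Vale.Agent.Lib.P302.helper8.E122.K13
import Vale.Agent.Lib.P302.helper8.E122.K14
import Vale.Agent.Lib.P302.helper8.E122.K15
import Vale.Agent.Lib.P302.helper8.E122.K16
import Vale.Agent.Lib.P302.helper8.E122.K17
import Vale.Agent.Lib.P302.helper8.E122.K18
import Vale.Agent.Lib.P302.helper8.E122.K19
import Vale.Agent.Lib.P302.helper8.E122.K20
import Vale.Agent.Lib.P302.helper8.E122.K21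
import Vale.Agent.Lib.P302.helper8.E122.K22
import Vale.Agent.Lib.P302.helper8.E122.K23
import Vale.Agent.Lib.P302.helper8.E122.K24
import Vale.Agent.Lib.P302.helper8.E122.K25
import Vale.Agent.Lib.P302.helper8.E122.K26
import Vale.Agent.Lib.P302.helper8.E122.K27
import Vale.Agent.Lib.P302.helper8.E122.K28
import Vale.Agent.Lib.P302.helper8.E122.K29
import Vale.Agent.Lib.P302.helper8.E122.K30
import Vale.Agent.Lib.P302.helper8.E122.K31
import Vale.Agent.Lib.P302.helper8.E122.K32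
import Vale.Agent.Lib.P302.helper8.E122.K33
import Vale.Agent.Lib.P302.helper8.E122.K34
import Vale.Agent.Lib.P302.helper8.E122.K35
import Vale.Agent.Lib.P302.helper8.E122.K36
import Vale.Agent.Lib.P302.helper8.E122.K37
import Vale.Agent.Lib.P302.helper8.E122.K38
import Vale.Agent.Lib.P302.helper8.E122.K39
import Vale.Agent.Lib.P302.helper8.E122.K40

/-!
# P302: the mask search of the 122-item instance, put together

No state of any layer can be split into triples of total size at most `cap`.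
-/

namespace Vale.Agent.Lib.P302.helper8.E122

open Vale.Agent.Lib.P302.helper14 Vale.Agent.Lib.P302.helper8

theorem no38 : ∀ m ∈ lay38, ¬ TriPart cap (szs (sel rows m)) := nil_no rows cap

theorem no37 : ∀ m ∈ lay37, ¬ TriPart cap (szs (sel rows m)) :=
  stepOKF_sound rows_ok ok_lay37 no38

theorem no36 : ∀ m ∈ lay36, ¬ TriPart cap (szs (sel rows m)) :=
  stepOKF_sound rows_ok ok_lay36 no37

theorem no35 : ∀ m ∈ lay35, ¬ TriPart cap (szs (sel rows m)) :=
  stepOKF_sound rows_ok ok_lay35 no36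

theorem no34 : ∀ m ∈ lay34, ¬ TriPart cap (szs (sel rows m)) :=
  stepOKF_sound rows_ok ok_lay34 no35

theorem no33 : ∀ m ∈ lay33, ¬ TriPart cap (szs (sel rows m)) :=
  stepOKF_sound rows_ok ok_lay33 no34

theorem no32 : ∀ m ∈ lay32, ¬ TriPart cap (szs (sel rows m)) :=
  stepOKF_sound rows_ok ok_lay32 no33

theorem no31 : ∀ m ∈ lay31, ¬ TriPart cap (szs (sel rows m)) :=
  stepOKF_sound rows_ok ok_lay31 no32

theorem no30 : ∀ m ∈ lay30, ¬ TriPart cap (szs (sel rows m)) :=
  stepOKF_sound rows_ok ok_lay30 no31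

theorem no29 : ∀ m ∈ lay29, ¬ TriPart cap (szs (sel rows m)) :=
  stepOKF_sound rows_ok ok_lay29 no30

theorem no28 : ∀ m ∈ lay28, ¬ TriPart cap (szs (sel rows m)) :=
  stepOKF_sound rows_ok ok_lay28 no29

theorem no27 : ∀ m ∈ lay27, ¬ TriPart cap (szs (sel rows m)) :=
  stepOKF_sound rows_ok ok_lay27 no28

theorem no26 : ∀ m ∈ lay26, ¬ TriPart cap (szs (sel rows m)) :=
  stepOKF_sound rows_ok ok_lay26 no27

theorem no25 : ∀ m ∈ lay25, ¬ TriPart cap (szs (sel rows m)) :=
  stepOKF_sound rows_ok ok_lay25 no26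

theorem no24 : ∀ m ∈ lay24, ¬ TriPart cap (szs (sel rows m)) :=
  append_no (stepOKF_sound rows_ok ok_p24_0 no25)
    (stepOKF_sound rows_ok ok_p24_1 no25)

theorem no23 : ∀ m ∈ lay23, ¬ TriPart cap (szs (sel rows m)) :=
  append_no (stepOKF_sound rows_ok ok_p23_0 no24)
    (append_no (stepOKF_sound rows_ok ok_p23_1 no24)
    (append_no (stepOKF_sound rows_ok ok_p23_2 no24)
    (stepOKF_sound rows_ok ok_p23_3 no24)))

theorem no22 : ∀ m ∈ lay22, ¬ TriPart cap (szs (sel rows m)) :=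
  append_no (stepOKF_sound rows_ok ok_p22_0 no23)
    (append_no (stepOKF_sound rows_ok ok_p22_1 no23)
    (append_no (stepOKF_sound rows_ok ok_p22_2 no23)
    (stepOKF_sound rows_ok ok_p22_3 no23)))

theorem no21 : ∀ m ∈ lay21, ¬ TriPart cap (szs (sel rows m)) :=
  append_no (stepOKF_sound rows_ok ok_p21_0 no22)
    (append_no (stepOKF_sound rows_ok ok_p21_1 no22)
    (stepOKF_sound rows_ok ok_p21_2 no22))

theorem no20 : ∀ m ∈ lay20, ¬ TriPart cap (szs (sel rows m)) :=
  append_no (stepOKF_sound rows_ok ok_p20_0 no21)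
    (stepOKF_sound rows_ok ok_p20_1 no21)

theorem no19 : ∀ m ∈ lay19, ¬ TriPart cap (szs (sel rows m)) :=
  append_no (stepOKF_sound rows_ok ok_p19_0 no20)
    (stepOKF_sound rows_ok ok_p19_1 no20)

theorem no18 : ∀ m ∈ lay18, ¬ TriPart cap (szs (sel rows m)) :=
  append_no (stepOKF_sound rows_ok ok_p18_0 no19)
    (append_no (stepOKF_sound rows_ok ok_p18_1 no19)
    (append_no (stepOKF_sound rows_ok ok_p18_2 no19)
    (stepOKF_sound rows_ok ok_p18_3 no19)))

theorem no17 : ∀ m ∈ lay17, ¬ TriPart cap (szs (sel rows m)) :=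
  append_no (stepOKF_sound rows_ok ok_p17_0 no18)
    (append_no (stepOKF_sound rows_ok ok_p17_1 no18)
    (stepOKF_sound rows_ok ok_p17_2 no18))

theorem no16 : ∀ m ∈ lay16, ¬ TriPart cap (szs (sel rows m)) :=
  append_no (stepOKF_sound rows_ok ok_p16_0 no17)
    (append_no (stepOKF_sound rows_ok ok_p16_1 no17)
    (stepOKF_sound rows_ok ok_p16_2 no17))

theorem no15 : ∀ m ∈ lay15, ¬ TriPart cap (szs (sel rows m)) :=
  append_no (stepOKF_sound rows_ok ok_p15_0 no16)
    (append_no (stepOKF_sound rows_ok ok_p15_1 no16)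
    (stepOKF_sound rows_ok ok_p15_2 no16))

theorem no14 : ∀ m ∈ lay14, ¬ TriPart cap (szs (sel rows m)) :=
  append_no (stepOKF_sound rows_ok ok_p14_0 no15)
    (stepOKF_sound rows_ok ok_p14_1 no15)

theorem no13 : ∀ m ∈ lay13, ¬ TriPart cap (szs (sel rows m)) :=
  stepOKF_sound rows_ok ok_lay13 no14

theorem no12 : ∀ m ∈ lay12, ¬ TriPart cap (szs (sel rows m)) :=
  stepOKF_sound rows_ok ok_lay12 no13

theorem no11 : ∀ m ∈ lay11, ¬ TriPart cap (szs (sel rows m)) :=
  stepOKF_sound rows_ok ok_lay11 no12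

theorem no10 : ∀ m ∈ lay10, ¬ TriPart cap (szs (sel rows m)) :=
  stepOKF_sound rows_ok ok_lay10 no11

theorem no9 : ∀ m ∈ lay9, ¬ TriPart cap (szs (sel rows m)) :=
  stepOKF_sound rows_ok ok_lay9 no10

theorem no8 : ∀ m ∈ lay8, ¬ TriPart cap (szs (sel rows m)) :=
  append_no (stepOKF_sound rows_ok ok_p8_0 no9)
    (stepOKF_sound rows_ok ok_p8_1 no9)

theorem no7 : ∀ m ∈ lay7, ¬ TriPart cap (szs (sel rows m)) :=
  stepOKF_sound rows_ok ok_lay7 no8

theorem no6 : ∀ m ∈ lay6, ¬ TriPart cap (szs (sel rows m)) :=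
  stepOKF_sound rows_ok ok_lay6 no7

theorem no5 : ∀ m ∈ lay5, ¬ TriPart cap (szs (sel rows m)) :=
  stepOKF_sound rows_ok ok_lay5 no6

theorem no4 : ∀ m ∈ lay4, ¬ TriPart cap (szs (sel rows m)) :=
  stepOKF_sound rows_ok ok_lay4 no5

theorem no3 : ∀ m ∈ lay3, ¬ TriPart cap (szs (sel rows m)) :=
  stepOKF_sound rows_ok ok_lay3 no4

theorem no2 : ∀ m ∈ lay2, ¬ TriPart cap (szs (sel rows m)) :=
  stepOKF_sound rows_ok ok_lay2 no3

theorem no1 : ∀ m ∈ lay1, ¬ TriPart cap (szs (sel rows m)) :=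
  stepOKF_sound rows_ok ok_lay1 no2

theorem no0 : ∀ m ∈ lay0, ¬ TriPart cap (szs (sel rows m)) :=
  stepOKF_sound rows_ok ok_lay0 no1

end Vale.Agent.Lib.P302.helper8.E122
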